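import Mathlib
import Vale.Agent.P011.H900.SpecX
import Vale.Agent.P011.H925.Full.DefsA
import Vale.Agent.P011.MPQ.Defs

/-!
Interfaces for the finiteness theorem: a noncentral normal subgroup of the group of rational points
has finite index.
-/

open Topology Module Polynomial

namespace Vale.Agent.P011N

/-! ### The abstract normal subgroup theorem -/

/-- `Γ` is a discrete cocompact subgroup, which normalizes `N` and is commensurated by `N`. -/
structure Lat {H : Type} [Group H] [TopologicalSpace H] (Γ N : Subgroup H) : Prop where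
  disc : ∀ C : Set H, IsCompact C → (C ∩ (Γ : Set H)).Finite
  coc : ∃ K : Set H, IsCompact K ∧ ∀ h : H, ∃ γ ∈ Γ, γ⁻¹ * h ∈ K
  norm : ∀ γ ∈ Γ, ∀ n ∈ N, γ * n * γ⁻¹ ∈ N
  comm : ∀ n ∈ N, (Γ.comap (MulAut.conj n).toMonoidHom).relIndex Γ ≠ 0

/-- The normal subgroup theorem for commensurators, compactly generated case. -/
def NST : Prop :=
  ∀ (H : Type) [Group H] [TopologicalSpace H] [IsTopologicalGroup H] [LocallyCompactSpace H]
    [T2Space H] [SecondCountableTopology H] (Γ N : Subgroup H), Lat Γ N → Dense (N : Set H) →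
    (∃ C : Set H, IsCompact C ∧ Subgroup.closure C = ⊤) →
    (∀ χ : H →* Multiplicative ℝ, Continuous χ → ∀ h, χ h = 1) → N.relIndex Γ ≠ 0

/-- The normal subgroup theorem for commensurators, local form. -/
def NSTloc : Prop :=
  ∀ (H : Type) [Group H] [TopologicalSpace H] [IsTopologicalGroup H] [LocallyCompactSpace H]
    [T2Space H] [SecondCountableTopology H] (Γ N : Subgroup H), Lat Γ N →
    IsOpen (N.topologicalClosure : Set H) → N.topologicalClosure.Normal →
    (∀ U : Subgroup H, IsOpen (U : Set H) →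
      IsOpen ((⁅U, U⁆ : Subgroup H).topologicalClosure : Set H)) →
    ∃ H₁ : Subgroup H, IsOpen (H₁ : Set H) ∧ H₁.Normal ∧
      ∀ C : Set H, IsCompact C → C ⊆ H₁ → N.relIndex (Γ ⊓ Subgroup.closure C) ≠ 0

/-! ### Big subgroups -/

/-- A normal subgroup which meets every abelian subgroup of infinite rank. -/
def Big {G : Type} [Group G] (N : Subgroup G) : Prop :=
  N.Normal ∧ ∀ j : Multiplicative (ℕ →₀ ℤ) →* G, ∃ a, a ≠ 1 ∧ j a ∈ N

theorem Big.comap {G H : Type} [Group G] [Group H] {N : Subgroup G} (h : Big N) (s : H →* G) :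
    Big (N.comap s) :=
  ⟨h.1.comap s, fun j => h.2 (s.comp j)⟩

theorem Big.mono {G : Type} [Group G] {N M : Subgroup G} (h : Big N) (hM : M.Normal)
    (hle : N ≤ M) : Big M :=
  ⟨hM, fun j => (h.2 j).imp fun _ ha => ⟨ha.1, hle ha.2⟩⟩

theorem big_of_pow {G : Type} [Group G] {N : Subgroup G} (hN : N.Normal)
    (h : ∀ g : G, ∃ m : ℕ, 0 < m ∧ g ^ m ∈ N) : Big N := by
  refine ⟨hN, fun j => ?_⟩
  obtain ⟨m, hm, h1⟩ := h (j (Multiplicative.ofAdd (Finsupp.single 0 1)))
  refine ⟨Multiplicative.ofAdd (Finsupp.single 0 1) ^ m, ?_, by rwa [map_pow]⟩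
  intro h2
  have h3 := congrArg (fun x => (Multiplicative.toAdd x : ℕ →₀ ℤ) 0) h2
  simp at h3
  omega

theorem big_of_index {G : Type} [Group G] {N : Subgroup G} (hN : N.Normal) (h : N.index ≠ 0) :
    Big N :=
  big_of_pow hN fun g => ⟨N.index, Nat.pos_of_ne_zero h, N.pow_index_mem g⟩

/-- The group has an abelian subgroup of infinite rank which meets the centre trivially. -/
def Wide (G : Type) [Group G] : Prop :=
  ∃ j : Multiplicative (ℕ →₀ ℤ) →* G, ∀ a, j a ∈ Subgroup.center G → a = 1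

theorem Big.not_le_center {G : Type} [Group G] (hG : Wide G) {N : Subgroup G} (h : Big N) :
    ¬ N ≤ Subgroup.center G := by
  obtain ⟨j, hj⟩ := hG
  obtain ⟨a, h1, h2⟩ := h.2 j
  exact fun h3 => h1 (hj a (h3 h2))

/-- Every noncentral normal subgroup has finite index. -/
def MF (G : Type) [Group G] : Prop :=
  ∀ N : Subgroup G, N.Normal → ¬ N ≤ Subgroup.center G → N.index ≠ 0

/-- Every big subgroup has finite index. -/
def BigFin (G : Type) [Group G] : Prop := ∀ N : Subgroup G, Big N → N.index ≠ 0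

theorem bigFin_of {G : Type} [Group G] (h1 : MF G) (h2 : Wide G) : BigFin G :=
  fun N hN => h1 N hN.1 (hN.not_le_center h2)

/-- The only big subgroup is the whole group. -/
def BigTop (G : Type) [Group G] : Prop := ∀ N : Subgroup G, Big N → N = ⊤

/-- Every normal subgroup is central or the whole group. -/
def Simp (G : Type) [Group G] : Prop :=
  ∀ N : Subgroup G, N.Normal → N ≤ Subgroup.center G ∨ N = ⊤

/-! ### Groups of type `A` -/

/-- The hypotheses on the algebra with involution (matrix algebras over `K` are allowed). -/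
structure AnisA (k K A : Type) [Field k] [Field K] [Algebra k K] [StarRing K] [Ring A]
    [StarRing A] [Algebra K A] (n : ℕ) : Prop where
  fixed : ∀ x : K, star x = x ↔ x ∈ Set.range (algebraMap k K)
  star_ne : ∃ x : K, star x ≠ x
  central : Algebra.IsCentral K A
  simple : IsSimpleRing A
  le : 3 ≤ n
  rank : finrank K A = n ^ 2
  aniso : ∀ x : A, star x * x = 0 → x = 0

/-- Finiteness for special unitary groups over number fields. -/
def MFNF : Prop :=
  ∀ (k K A Ω : Type) [Field k] [NumberField k] [Field K] [Algebra k K] [StarRing K] [Ring A]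
    [StarRing A] [Algebra k A] [Algebra K A] [IsScalarTower k K A] [StarModule K A] [Field Ω]
    [Algebra K Ω] (n : ℕ) (f : A →ₐ[K] Matrix (Fin n) (Fin n) Ω), AnisA k K A n →
    MF (Vale.Agent.P011.H925.Full.GK f) ∧ Wide (Vale.Agent.P011.H925.Full.GK f)

/-- Finiteness for special unitary groups over function fields. -/
def MFFF : Prop :=
  ∀ (k K A Ω : Type) [Field k] [Field K] [Algebra k K] [StarRing K] [Ring A]
    [StarRing A] [Algebra k A] [Algebra K A] [IsScalarTower k K A] [StarModule K A] [Field Ω]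
    [Algebra K Ω] (n : ℕ) (f : A →ₐ[K] Matrix (Fin n) (Fin n) Ω),
    (∃ (F : Type) (_ : Field F) (_ : Finite F) (_ : Algebra (RatFunc F) k),
      FiniteDimensional (RatFunc F) k) → AnisA k K A n →
    MF (Vale.Agent.P011.H925.Full.GK f)

/-- Finiteness for the norm-one groups of quaternion division algebras over number fields. -/
def MFQ : Prop :=
  ∀ (L : Type) [Field L] [NumberField L] (a b : Lˣ), Vale.Agent.P011.MPQ.Aniso a b →
    MF (Vale.Agent.P011.MPQ.SL1 a b) ∧ Wide (Vale.Agent.P011.MPQ.SL1 a b)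

/-! ### Linear groups over the rational numbers -/

/-- A finite family of multilinear forms. -/
structure Forms (V : Type) [AddCommGroup V] [Module ℚ V] where
  I : Type
  fin : Finite I
  deg : I → ℕ
  τ : ∀ i, MultilinearMap ℚ (fun _ : Fin (deg i) => V) ℚ

/-- The function is given by a rational function which is regular at zero. -/
def IsRat {E : Type} [AddCommGroup E] [Module ℚ E] (f : ℚ → E) : Prop :=
  ∃ (b : ℚ[X]) (n : ℕ) (c : Fin n → E), b.eval 0 ≠ 0 ∧
    ∀ t : ℚ, b.eval t ≠ 0 → b.eval t • f t = ∑ j : Fin n, t ^ (j : ℕ) • c j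

section

variable {V : Type} [AddCommGroup V] [Module ℚ V] (T : Forms V)

/-- The group of the linear automorphisms which preserve the forms. -/
def Forms.grp : Subgroup (V ≃ₗ[ℚ] V) where
  carrier := {g | ∀ i x, T.τ i (fun j => g (x j)) = T.τ i x}
  mul_mem' := fun {a b} ha hb i x => (ha i fun j => b (x j)).trans (hb i x)
  one_mem' := fun _ _ => rfl
  inv_mem' := fun {a} ha i x => by
    have h := ha i fun j => a⁻¹ (x j)
    simp only [LinearEquiv.coe_inv, LinearEquiv.apply_symm_apply] at h ⊢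
    exact h.symm

/-- The Lie algebra of the group. -/
def Forms.lie : Submodule ℚ (Module.End ℚ V) where
  carrier := {X | ∀ i x, ∑ j, T.τ i (Function.update x j (X (x j))) = 0}
  add_mem' := fun {X Y} hX hY i x => by
    simp only [LinearMap.add_apply, MultilinearMap.map_update_add, Finset.sum_add_distrib]
    rw [hX i x, hY i x, add_zero]
  zero_mem' := fun i x => by simp
  smul_mem' := fun c X hX i x => by
    simp only [LinearMap.smul_apply, MultilinearMap.map_update_smul]
    rw [← Finset.smul_sum, hX i x, smul_zero]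

/-- The tangent vectors at one of the rational curves in the group. -/
def Forms.tan : Set (Module.End ℚ V) :=
  {X | ∃ (g : ℚ → Module.End ℚ V) (b : ℚ[X]), IsRat g ∧ b.eval 0 ≠ 0 ∧
    ∀ t : ℚ, b.eval t ≠ 0 → ∃ u ∈ T.grp, (u : Module.End ℚ V) = 1 + t • X + t ^ 2 • g t}

/-- The hypotheses on the forms. -/
structure Forms.Good : Prop where
  det : ∀ g ∈ T.grp, |LinearMap.det (g : Module.End ℚ V)| = 1
  aniso : ∀ x : V, x ≠ 0 → ∃ i, T.deg i ≠ 0 ∧ T.τ i (fun _ => x) ≠ 0
  tan_ne : ∃ X ∈ T.tan, X ≠ 0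
  irr : ∀ W : Submodule ℚ (Module.End ℚ V), W ≤ T.lie → W ≠ ⊥ →
    (∀ X ∈ T.tan, ∀ Y ∈ W, X * Y - Y * X ∈ W) → W = T.lie
  nonab : ∃ X ∈ T.lie, ∃ Y ∈ T.lie, X * Y ≠ Y * X
  cent : ∀ n : T.grp, (∀ X ∈ T.lie, (n.1 : Module.End ℚ V) * X = X * (n.1 : Module.End ℚ V)) →
    n ∈ Subgroup.center T.grp

end

/-- The theorem on linear groups. -/
def LGThm : Prop :=
  ∀ (V : Type) [AddCommGroup V] [Module ℚ V] [FiniteDimensional ℚ V] (T : Forms V),
    T.Good → BigTop T.grp → Simp T.grp

instance factPrimes (p : Nat.Primes) : Fact p.1.Prime := ⟨p.2⟩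

/-- The product of the real numbers and of finitely many fields of `p`-adic numbers. -/
abbrev RP (P : Finset Nat.Primes) : Type := ℝ × ∀ p : P, ℚ_[p.1.1]

/-- The ambient group. -/
abbrev Amb (d : ℕ) (P : Finset Nat.Primes) : Type := GL (Fin d) (RP P)

instance matLC (d : ℕ) (P : Finset Nat.Primes) :
    LocallyCompactSpace (Matrix (Fin d) (Fin d) (RP P)) :=
  inferInstanceAs (LocallyCompactSpace (Fin d → Fin d → RP P))

instance matSC (d : ℕ) (P : Finset Nat.Primes) :
    SecondCountableTopology (Matrix (Fin d) (Fin d) (RP P)) :=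
  inferInstanceAs (SecondCountableTopology (Fin d → Fin d → RP P))

instance ambLC (d : ℕ) (P : Finset Nat.Primes) : LocallyCompactSpace (Amb d P) :=
  haveI : LocallyCompactSpace (Matrix (Fin d) (Fin d) (RP P))ᵐᵒᵖ :=
    MulOpposite.opHomeomorph.symm.isClosedEmbedding.locallyCompactSpace
  Units.isClosedEmbedding_embedProduct.locallyCompactSpace

instance ambSC (d : ℕ) (P : Finset Nat.Primes) : SecondCountableTopology (Amb d P) :=
  haveI : SecondCountableTopology (Matrix (Fin d) (Fin d) (RP P))ᵐᵒᵖ :=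
    MulOpposite.opHomeomorph.symm.secondCountableTopology
  Units.isEmbedding_embedProduct.secondCountableTopology

section

variable {V : Type} [AddCommGroup V] [Module ℚ V] {d : ℕ} (b : Basis (Fin d) ℚ V)
  (P : Finset Nat.Primes)

/-- The matrix of an automorphism. -/
noncomputable def mat : (V ≃ₗ[ℚ] V) →* GL (Fin d) ℚ :=
  (Units.map (LinearMap.toMatrixAlgEquiv b : Module.End ℚ V →* Matrix (Fin d) (Fin d) ℚ)).comp
    (LinearMap.GeneralLinearGroup.generalLinearEquiv ℚ V).symm.toMonoidHom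

/-- The embedding in the ambient group. -/
noncomputable def emb : (V ≃ₗ[ℚ] V) →* Amb d P :=
  (Matrix.GeneralLinearGroup.map (algebraMap ℚ (RP P))).comp (mat b)

/-- The matrix is integral at the primes outside `P`. -/
def IntM (M : Matrix (Fin d) (Fin d) ℚ) : Prop :=
  ∀ i j, ∀ p : Nat.Primes, p ∉ P → padicNorm p.1 (M i j) ≤ 1

/-- The automorphisms which are integral outside `P` together with their inverses. -/
def IntS : Set (V ≃ₗ[ℚ] V) := {g | IntM P (mat b g).1 ∧ IntM P (mat b g⁻¹).1}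

/-- The group of the automorphisms which are integral outside `P` (the set `IntS` is a group). -/
def IntG : Subgroup (V ≃ₗ[ℚ] V) := Subgroup.closure (IntS b P)

/-- The closure in the ambient group. -/
noncomputable def Clo (Λ : Subgroup (V ≃ₗ[ℚ] V)) : Subgroup (Amb d P) :=
  (Λ.map (emb b P)).topologicalClosure

/-- The subgroup is open in `Λ` for the topology of the ambient group. -/
def OpenIn (Λ₀ Λ : Subgroup (V ≃ₗ[ℚ] V)) : Prop :=
  ∃ U ∈ 𝓝 (1 : Amb d P), ∀ g ∈ Λ, emb b P g ∈ U → g ∈ Λ₀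

end

/-- Discreteness and commensuration. -/
def DiscStmt : Prop :=
  ∀ (V : Type) [AddCommGroup V] [Module ℚ V] (d : ℕ) (b : Basis (Fin d) ℚ V)
    (P : Finset Nat.Primes), Function.Injective (emb b P) ∧
    (∀ g, g ∈ IntG b P ↔ g ∈ IntS b P) ∧
    (∀ C : Set (Amb d P), IsCompact C → {g | g ∈ IntG b P ∧ emb b P g ∈ C}.Finite) ∧
    (∀ g : V ≃ₗ[ℚ] V,
      ((IntG b P).comap (MulAut.conj g).toMonoidHom).relIndex (IntG b P) ≠ 0) ∧
    ∀ g : V ≃ₗ[ℚ] V, ∃ P' : Finset Nat.Primes, P ⊆ P' ∧ g ∈ IntG b P'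

/-- Cocompactness. -/
def CocStmt : Prop :=
  ∀ (V : Type) [AddCommGroup V] [Module ℚ V] (d : ℕ) (b : Basis (Fin d) ℚ V)
    (P : Finset Nat.Primes) (T : Forms V),
    (∀ g ∈ T.grp, |LinearMap.det (g : Module.End ℚ V)| = 1) →
    (∀ x : V, x ≠ 0 → ∃ i, T.deg i ≠ 0 ∧ T.τ i (fun _ => x) ≠ 0) →
    ∃ K : Set (Amb d P), IsCompact K ∧
      ∀ h ∈ Clo b P T.grp, ∃ γ ∈ T.grp ⊓ IntG b P, (emb b P γ)⁻¹ * h ∈ K

/-- Openness of the closure of a noncentral subgroup normalized by an open subgroup; the commutator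
subgroup of an open subgroup is not central. -/
def OpnStmt : Prop :=
  ∀ (V : Type) [AddCommGroup V] [Module ℚ V] (d : ℕ) (b : Basis (Fin d) ℚ V)
    (P : Finset Nat.Primes) (T : Forms V), T.Good → ∀ Λ₀ : Subgroup (V ≃ₗ[ℚ] V), Λ₀ ≤ T.grp →
    OpenIn b P Λ₀ T.grp →
    (∀ N : Subgroup (V ≃ₗ[ℚ] V), N ≤ T.grp → (∀ g ∈ Λ₀, ∀ n ∈ N, g * n * g⁻¹ ∈ N) →
      (∃ n ∈ N, ∃ g ∈ T.grp, g * n ≠ n * g) →
      ∃ U ∈ 𝓝 (1 : Amb d P), ∀ h ∈ Clo b P T.grp, h ∈ U → h ∈ Clo b P N) ∧
    ∃ n ∈ ⁅Λ₀, Λ₀⁆, ∃ g ∈ T.grp, g * n ≠ n * g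

/-- An abelian group of infinite rank of rational matrices is not discrete. -/
def BigOpenStmt : Prop :=
  ∀ (d : ℕ) (P : Finset Nat.Primes) (j : Multiplicative (ℕ →₀ ℤ) →* GL (Fin d) ℚ),
    ∀ U ∈ 𝓝 (1 : Amb d P), ∃ a, a ≠ 1 ∧
      Matrix.GeneralLinearGroup.map (algebraMap ℚ (RP P)) (j a) ∈ U

/-! ### The exceptional groups -/

section

open Vale.Agent.P011.H900

/-- Trialitarian groups of cyclic cubic extensions. -/
def ClD3 (Φ : ∀ (G : Type) [Group G], Prop) : Prop :=
  ∀ (F : Type) [Field F] [NumberField F] (r s : F → F) (a b c d q : F),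
    Dat [r, s] r s a b c d q → Φ (grp fun f : Oc a b → Oc a b => Tri c r f ∧ Twi c r s d q f)

/-- Trialitarian groups of noncyclic cubic extensions. -/
def ClD6 (Φ : ∀ (G : Type) [Group G], Prop) : Prop :=
  ∀ (F : Type) [Field F] [NumberField F] (r s i : F → F) (a b c d q : F),
    Dat [r, s, i] r s a b c d q → Aut 2 i → (∀ x, s (i x) = i (s x)) →
    (∀ x, r (i (r x)) = i x) → i d = d → r (i q) = q →
    Φ (grp fun f : Oc a b → Oc a b => Tri c r f ∧ Twi c r s d q f ∧ Swp i f)

/-- Outer groups of type `E₆` with trivial Tits class. -/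
def ClE1 (Φ : ∀ (G : Type) [Group G], Prop) : Prop :=
  ∀ (F : Type) [Field F] [NumberField F] (s : F → F) (a b c : F) (g : Fin 3 → F),
    Aut 2 s → Dvn [s] [] a b c → (∀ i, s (g i) = g i) →
    (∀ x : Al a b, her c s g x x = 0 → x = 0) →
    Φ (grp fun f : Al a b → Al a b => Cub c f ∧ Her c s g f)

/-- Inner groups of type `E₆`. -/
def ClE2 (Φ : ∀ (G : Type) [Group G], Prop) : Prop :=
  ∀ (F : Type) [Field F] [NumberField F] (r : F → F) (a b c e : F),
    Aut 3 r → Dvn [r] [r] a b c → Nnm r e →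
    Φ (grp fun f : Al a b → Al a b => Cub c f ∧ Ph r e f)

/-- Outer groups of type `E₆` with nontrivial Tits class. -/
def ClE3 (Φ : ∀ (G : Type) [Group G], Prop) : Prop :=
  ∀ (F : Type) [Field F] [NumberField F] (r s : F → F) (a b c e t : F) (g : Fin 3 → F),
    Aut 3 r → Aut 2 s → (∀ x, r (s x) = s (r x)) → Dvn [r, s] [r, s] a b c → Nnm r e →
    Wei r s e t g → Φ (grp fun f : Al a b → Al a b => Cub c f ∧ Her c s g f ∧ Ph r e f)

/-- The group is isomorphic to the group of a good family of forms. -/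
def HasGood (G : Type) [Group G] : Prop :=
  ∃ (V : Type) (_ : AddCommGroup V) (_ : Module ℚ V) (_ : FiniteDimensional ℚ V) (T : Forms V),
    T.Good ∧ Nonempty (G ≃* T.grp)

end

end Vale.Agent.P011N
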