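import Vale.Agent.P011N.Iface

/-!
The anisotropic outer groups of type `E₆` with nontrivial Tits class.
-/

namespace Vale.Agent.P011N

open Vale.Agent.P011.H900

/-- Anisotropic outer groups of type `E₆` with nontrivial Tits class: the hermitian form is
anisotropic, or the octonions over `F` form a division algebra. -/
def ClE3A (Φ : ∀ (G : Type) [Group G], Prop) : Prop :=
  ∀ (F : Type) [Field F] [NumberField F] (r s : F → F) (a b c e t : F) (g : Fin 3 → F),
    Aut 3 r → Aut 2 s → (∀ x, r (s x) = s (r x)) → Dvn [r, s] [r, s] a b c → Nnm r e →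
    Wei r s e t g → ((∀ x : Al a b, her c s g x x = 0 → x = 0) ∨ Dvn [r, s] [] a b c) →
    Φ (grp fun f : Al a b → Al a b => Cub c f ∧ Her c s g f ∧ Ph r e f)

end Vale.Agent.P011N
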